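import Vale.Agent.P267.H417.KK
import Vale.Agent.P267.H877.XtThm

/-!
# P267 / XM-K (helper417): `XT.NoFlThm`
-/

noncomputable section

namespace Vale.Agent.P267.H417

open FL XT H158

/-- **the Floquet sections of `K` vanish** -/
theorem noFlThm : XT.NoFlThm := by
  intro X _ _ _ _ _ _ n hX hN B hS
  exact noFloquetK_of_asm hX.pos hN B (hS 1)

end Vale.Agent.P267.H417
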