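import Vale.Agent.P267.H399.Calc3
import Vale.Agent.P267.H877.Iface
import Vale.Agent.P267.H622.Reg
import Vale.Agent.P267.H221.Out

/-!
# P267 / XM-K (helper417): no Floquet sections of `K` on the infinite cyclic cover

`M → X` the infinite cyclic cover. If no holomorphic structure on (the smooth bundle underlying)
`K_X` has a nonzero holomorphic section (which follows from `K` nef and `K·K < 0`), then a
holomorphic section `v` of `K_M` with `v ∘ γ = μ v`, `μ ≠ 0`, vanishes; and so does one with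
`v ∘ γ^m = μ v`, `m ≥ 1`.
-/

set_option linter.unusedVariables false
set_option linter.unusedSectionVars false

open scoped Manifold ContDiff ComplexConjugate Matrix ComplexOrder Topology
open MeasureTheory Set Filter

noncomputable section

namespace Vale.Agent.P267.H417

open FL XT

/-! ### one translate -/

section one

variable {M : Type} [TopologicalSpace M] [ChartedSpace C2 M] [IsManifold 𝓘(ℂ, C2) ω M]
variable {X : Type} [TopologicalSpace X] [ChartedSpace C2 X] [IsManifold 𝓘(ℂ, C2) ω X]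

/-- `M → X` is the quotient by the deck transformation `D.γ` -/
structure IsQuo (D : XTData M) (q : M → X) : Prop where
  map : ChartMap q
  surj : Function.Surjective q
  fib : ∀ x y, q x = q y → ∃ k : ℤ, y = D.sh k x
  inv : ∀ x, q (D.γ x) = q x

variable {D : XTData M} {q : M → X}

theorem sh_invariant {W : Type*} (D : XTData M) {u : M → W} (hu : ∀ x, u (D.γ x) = u x) (k : ℤ)
    (x : M) : u (D.sh k x) = u x := by
  revert k
  apply XTData.sh_induction
  · simp
  · intro k hk
    rw [← D.γ_sh, hu, hk]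
  · intro k hk
    rw [← hu, D.γ_sh, sub_add_cancel, hk]

theorem IsQuo.desc_apply (h : IsQuo D q) {W : Type*} {u : M → W} (hu : ∀ x, u (D.γ x) = u x)
    (x : M) : desc h.surj u (q x) = u x := by
  refine XT.desc_apply h.surj (fun y z hyz => ?_) x
  obtain ⟨k, rfl⟩ := h.fib y z hyz
  rw [sh_invariant D hu]

/-- the form `∂̄f` -/
def bf (D : XTData M) : M → Fin 2 → ℂ := dbar0 0 fun y => (D.f y : ℂ)

theorem reg1_bf (D : XTData M) : Reg1 ∞ 0 (bf D) := D.f_smooth.dbar infty_add_one_le

theorem at0_f (D : XTData M) (n : WithTop ℕ∞) (hn : n ≤ ∞) (x : M) :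
    At0 n 0 (fun y => (D.f y : ℂ)) x := (D.f_smooth.at x).of_le hn

theorem one_le_infty : (1 : WithTop ℕ∞) ≤ ∞ := by
  have : ((1 : ℕ∞) : WithTop ℕ∞) ≤ ((⊤ : ℕ∞) : WithTop ℕ∞) := WithTop.coe_le_coe.2 le_top
  exact this

theorem two_le_infty : (2 : WithTop ℕ∞) ≤ ∞ := by
  have : ((2 : ℕ∞) : WithTop ℕ∞) ≤ ((⊤ : ℕ∞) : WithTop ℕ∞) := WithTop.coe_le_coe.2 le_top
  exact this

theorem chartMap_γ (D : XTData M) : ChartMap D.γ := by
  have h := D.chartMap_sh 1
  have e : D.sh 1 = (D.γ : M → M) := by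
    funext x
    exact D.sh_one x
  rwa [e] at h

theorem bf_γ (D : XTData M) (x : M) : bf D (D.γ x) = bf D x := by
  have h1 : dbar0 0 (fun y => (D.f (D.γ y) : ℂ)) x = bf D (D.γ x) :=
    (chartMap_γ D).dbar0_comp 0 (fun y => (D.f y : ℂ)) x
  have h2 : (fun y => (D.f (D.γ y) : ℂ)) = fun y => (D.f y : ℂ) + (1 : ℂ) := by
    funext y
    rw [D.f_γ]
    push_cast
    rfl
  rw [← h1, h2, FL.dbar0_add (at0_f D 1 one_le_infty x) at0_const, FL.dbar0_const, add_zero]
  rfl

theorem dbar1_bf (D : XTData M) (x : M) : dbar1 0 (bf D) x = 0 :=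
  dbar1_dbar0 (at0_f D 2 two_le_infty x)

/-- **A Floquet section of `K` on `M` gives a holomorphic section of a twist of `K_X` on `X`.** -/
theorem floquet_zero (h : IsQuo D q) {ι : Type} [Fintype ι] [DecidableEq ι] (LK : LB X ι)
    (aK : X → Fin 2 → ℂ) (haK : LK.IsHol aK) (σ : X → EuclideanSpace ℂ ι) (hσ : Reg0 ∞ (-1) σ)
    (hσs : LK.Sec σ) (hσ0 : ∀ x, σ x ≠ 0) (hσh : ∀ x i, LK.db0 aK (-1) σ x i = 0)
    (hvan : ∀ a, LK.IsHol a → ∀ s ∈ RR.H0 LK a 0, s = 0)
    {μ : ℂ} (hμ : μ ≠ 0) {v : M → ℂ} (hv : Reg0 ∞ 1 v) (hvh : ∀ x i, dbar0 1 v x i = 0)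
    (hvγ : ∀ x, v (D.γ x) = μ * v x) (x : M) : v x = 0 := by
  classical
  set l : ℂ := Complex.log μ with hl
  have hexp : Complex.exp l = μ := Complex.exp_log hμ
  set E : M → ℂ := fun y => Complex.exp (-l * (D.f y : ℂ)) with hE
  set w : M → ℂ := fun y => E y * v y with hw
  have hE0 : ∀ y, E y ≠ 0 := fun y => Complex.exp_ne_zero _
  have hwγ : ∀ y, w (D.γ y) = w y := by
    intro y
    simp only [hw, hE, hvγ, D.f_γ]
    have : -l * ((D.f y + 1 : ℝ) : ℂ) = -l * (D.f y : ℂ) - l := by push_cast; ring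
    rw [this, Complex.exp_sub, hexp]
    field_simp
  -- regularity of E
  have hfat : ∀ y (n : WithTop ℕ∞), n ≤ ∞ → At0 n 0 (fun y => -l * (D.f y : ℂ)) y := fun y n hn =>
    (at0_f D n hn y).const_smul (-l)
  have hEat : ∀ y (n : WithTop ℕ∞), n ≤ ∞ → At0 n 0 E y := fun y n hn => (hfat y n hn).cexp
  have hEd : ∀ y i, dbar0 0 E y i = E y * (-l * bf D y i) := by
    intro y i
    have h1 : dbar0 0 E y i = Complex.exp (-l * (D.f y : ℂ)) *
        dbar0 0 (fun y => -l * (D.f y : ℂ)) y i := dbar0_cexp (hfat y 1 one_le_infty) i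
    have h2 : dbar0 0 (fun y => -l * (D.f y : ℂ)) y i = -l * bf D y i :=
      FL.dbar0_const_smul (-l) (at0_f D 1 one_le_infty y) i
    rw [h1, h2]
  have hwat : ∀ y (n : WithTop ℕ∞), n ≤ ∞ → At0 n 1 w y := fun y n hn =>
    (hEat y n hn).mul ((hv.at y).of_le hn)
  have hwd : ∀ y i, dbar0 1 w y i = -l * bf D y i * w y := by
    intro y i
    have h1 := FL.dbar0_mul (hEat y 1 one_le_infty) ((hv.at y).of_le one_le_infty) i
    rw [hvh, mul_zero, add_zero, hEd] at h1
    rw [h1]
    simp only [hw]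
    ring
  -- descent
  set w₀ : X → ℂ := desc h.surj w with hw₀
  set b₀ : X → Fin 2 → ℂ := desc h.surj (bf D) with hb₀
  have hw₀q : ∀ y, w₀ (q y) = w y := fun y => h.desc_apply hwγ y
  have hb₀q : ∀ y, b₀ (q y) = bf D y := fun y => h.desc_apply (bf_γ D) y
  have hw₀f : (fun y => w₀ (q y)) = w := funext hw₀q
  have hb₀f : (fun y => b₀ (q y)) = bf D := funext hb₀q
  have hw₀r : Reg0 ∞ 1 w₀ := by
    rw [← h.map.reg0_comp_iff h.surj, hw₀f, reg0_iff_at]
    exact fun y => hwat y ∞ le_rfl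
  have hb₀r : Reg1 ∞ 0 b₀ := by
    rw [← h.map.reg1_comp_iff h.surj, hb₀f]
    exact reg1_bf D
  have hw₀d : ∀ y i, dbar0 1 w₀ y i = -l * b₀ y i * w₀ y := by
    intro y i
    obtain ⟨z, rfl⟩ := h.surj y
    rw [← h.map.dbar0_comp, hw₀f, hwd, hb₀q, hw₀q]
  have hb₀d : ∀ y, dbar1 0 b₀ y = 0 := by
    intro y
    obtain ⟨z, rfl⟩ := h.surj y
    rw [← h.map.dbar1_comp, hb₀f, dbar1_bf]
  -- the twisted structure
  have hahol : LK.IsHol fun y i => aK y i + l * b₀ y i := by
    constructor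
    · rw [reg1_iff_at]
      intro y
      have h1 : At1 ∞ 0 (fun y i => l * b₀ y i) y := (hb₀r.at y).const_smul l
      exact (haK.smooth.at y).add h1
    · intro y
      have h1 : At1 1 0 (fun y i => l * b₀ y i) y := ((hb₀r.at y).of_le one_le_infty).const_smul l
      have h2 : dbar1 0 (fun y i => aK y i + l * b₀ y i) y =
          dbar1 0 aK y + dbar1 0 (fun y i => l * b₀ y i) y :=
        FL.dbar1_add ((haK.smooth.at y).of_le one_le_infty) h1
      have h3 : dbar1 0 (fun y i => l * b₀ y i) y = l * dbar1 0 b₀ y :=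
        FL.dbar1_const_smul l ((hb₀r.at y).of_le one_le_infty)
      rw [h2, h3, hb₀d, mul_zero, add_zero, haK.integrable]
  -- the section
  set s : X → EuclideanSpace ℂ ι := fun y => w₀ y • σ y with hs
  have hsH : s ∈ RR.H0 LK (fun y i => aK y i + l * b₀ y i) 0 := by
    rw [RR.mem_H0]
    refine ⟨⟨?_, ?_⟩, ?_⟩
    · rw [reg0_iff_at]
      intro y
      have := (hw₀r.at y).smul' (hσ.at y)
      simpa using this
    · intro y
      rw [hs]
      simp only [RR.act_smul, hσs y]
    · funext y i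
      have h1 : dbar0 0 s y i = dbar0 1 w₀ y i • σ y + w₀ y • dbar0 (-1) σ y i := by
        have := FL.dbar0_smul' ((hw₀r.at y).of_le one_le_infty) ((hσ.at y).of_le one_le_infty) i
        simpa using this
      have h2 := hσh y i
      rw [LB.db0] at h2
      show LB.act (LK.P y) (dbar0 0 s y i) + (aK y i + l * b₀ y i) • s y = 0
      rw [h1, RR.act_add, RR.act_smul, RR.act_smul, hσs y, hw₀d]
      have h3 : LB.act (LK.P y) (dbar0 (-1) σ y i) = -(aK y i • σ y) := by
        rw [eq_neg_iff_add_eq_zero]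
        exact h2
      rw [h3, hs]
      simp only
      module
  have hs0 := hvan _ hahol s hsH
  have h1 : s (q x) = 0 := by rw [hs0]; rfl
  have h2 : w₀ (q x) • σ (q x) = 0 := h1
  rw [smul_eq_zero, or_iff_left (hσ0 _), hw₀q] at h2
  simpa [hw, hE0 x] using h2

end one

/-! ### several translates -/

section several

variable {M : Type} [TopologicalSpace M] [ChartedSpace C2 M] [IsManifold 𝓘(ℂ, C2) ω M]
variable (D : XTData M)

/-- holomorphic sections of `K` on `M` -/
def HK (M : Type) [TopologicalSpace M] [ChartedSpace C2 M] [IsManifold 𝓘(ℂ, C2) ω M] :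
    Submodule ℂ (M → ℂ) where
  carrier := {v | Reg0 ∞ 1 v ∧ ∀ x i, dbar0 1 v x i = 0}
  add_mem' := fun {u v} hu hv => ⟨RR.Reg0.add hu.1 hv.1, fun x i => by
    have h := RR.dbar0_add hu.1 hv.1
    rw [h, Pi.add_apply, Pi.add_apply, hu.2, hv.2, add_zero]⟩
  zero_mem' := ⟨RR.reg0_zero 1, fun x i => by
    have : dbar0 1 (fun _ : M => (0 : ℂ)) x = 0 := FL.dbar0_zero
    exact congrFun this i⟩
  smul_mem' := fun c u hu => ⟨RR.Reg0.smul c hu.1, fun x i => by
    rw [RR.dbar0_smul c hu.1, Pi.smul_apply, Pi.smul_apply, hu.2, smul_zero]⟩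

/-- the action of `γ` on holomorphic sections of `K` -/
def actK : HK M →ₗ[ℂ] HK M where
  toFun v := ⟨fun x => v.1 (D.γ x), (chartMap_γ D).reg0_comp v.2.1, fun x i => by
    rw [(chartMap_γ D).dbar0_comp]; exact v.2.2 _ i⟩
  map_add' u v := rfl
  map_smul' c u := rfl

theorem actK_pow (m : ℕ) (v : HK M) (x : M) : ((actK D ^ m) v).1 x = v.1 (D.sh m x) := by
  induction m generalizing x with
  | zero => simp
  | succ m ih =>
    rw [pow_succ', Module.End.mul_apply]
    show ((actK D ^ m) v).1 (D.γ x) = _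
    rw [ih, D.sh_γ]
    push_cast
    rfl

/-- no eigenvector with nonzero eigenvalue: no zero of a polynomial with nonzero roots -/
theorem eq_zero_of_aeval {V : Type*} [AddCommGroup V] [Module ℂ V] (T : V →ₗ[ℂ] V)
    (hT : ∀ (r : ℂ) (v : V), r ≠ 0 → T v = r • v → v = 0) (n : ℕ) :
    ∀ (p : Polynomial ℂ), p.natDegree = n → p.eval 0 ≠ 0 →
      ∀ v : V, Polynomial.aeval T p v = 0 → v = 0 := by
  induction n with
  | zero =>
    intro p hp h0 v hv
    rw [Polynomial.eq_C_of_natDegree_eq_zero hp] at hv h0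
    rw [Polynomial.eval_C] at h0
    rw [Polynomial.aeval_C, Module.algebraMap_end_apply] at hv
    exact (smul_eq_zero.1 hv).resolve_left h0
  | succ n ih =>
    intro p hp h0 v hv
    have hdeg : p.degree ≠ 0 := by
      intro h
      have := Polynomial.natDegree_eq_zero_iff_degree_le_zero.2 h.le
      omega
    obtain ⟨r, hr⟩ := IsAlgClosed.exists_root p hdeg
    obtain ⟨g, hg⟩ := Polynomial.dvd_iff_isRoot.2 hr
    have hp0 : p ≠ 0 := by
      rintro rfl
      simp at h0
    have hg0 : g ≠ 0 := by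
      rintro rfl
      rw [mul_zero] at hg
      exact hp0 hg
    have hr0 : r ≠ 0 := by
      rintro rfl
      exact h0 hr
    have hdg : g.natDegree = n := by
      have h1 := Polynomial.natDegree_mul (Polynomial.X_sub_C_ne_zero r) hg0
      rw [← hg, hp, Polynomial.natDegree_X_sub_C] at h1
      omega
    have hg1 : g.eval 0 ≠ 0 := by
      intro h
      apply h0
      rw [hg, Polynomial.eval_mul, h, mul_zero]
    refine ih g hdg hg1 v ?_
    refine hT r _ hr0 ?_
    rw [hg, map_mul, Module.End.mul_apply, map_sub, Polynomial.aeval_X, Polynomial.aeval_C,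
      LinearMap.sub_apply, Module.algebraMap_end_apply, sub_eq_zero] at hv
    exact hv

/-- **no sections of `K ⊗ L_μ` on `X_m`** -/
theorem noFloquetK_pow (hD : D.NoFloquetK) {m : ℕ} (hm : m ≠ 0) {μ : ℂ} (hμ : μ ≠ 0) {v : M → ℂ}
    (hv : Reg0 ∞ 1 v) (hvh : ∀ x i, dbar0 1 v x i = 0) (hvm : D.Equiv m μ v) (x : M) : v x = 0 := by
  set u : HK M := ⟨v, hv, hvh⟩ with hu
  have key : u = 0 := by
    refine eq_zero_of_aeval (actK D) ?_ _ (Polynomial.X ^ m - Polynomial.C μ) rfl ?_ u ?_
    · intro r w hr hw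
      apply Subtype.ext
      funext y
      refine hD r w.1 hr w.2.1 w.2.2 (fun z => ?_) y
      have := congrArg (fun t : HK M => t.1 z) hw
      exact this
    · simp [hm, hμ]
    · apply Subtype.ext
      funext y
      rw [map_sub, map_pow, Polynomial.aeval_X, Polynomial.aeval_C, LinearMap.sub_apply,
        Module.algebraMap_end_apply]
      show ((actK D ^ m) u).1 y - μ • v y = 0
      rw [actK_pow, sub_eq_zero]
      exact hvm y
  have := congrArg (fun t : HK M => t.1 x) key
  exact this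

end several

end Vale.Agent.P267.H417
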