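import Vale.Agent.P267.H417.XMK
import Vale.Agent.P267.H622.CovInt
import Vale.Agent.P267.H332.Pair.Pair
import Vale.Agent.P267.H399.LBCurv
import Vale.Agent.P267.H456.Assembly

/-!
# P267 / XM-K (helper417): intersection numbers under biholomorphisms; `NoFloquetK` in the language
of `Asm`
-/

set_option linter.unusedVariables false
set_option linter.unusedSectionVars false

open scoped Manifold ContDiff ComplexConjugate Matrix ComplexOrder Topology
open MeasureTheory Set Filter

noncomputable section

namespace Vale.Agent.P267.H417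

open FL XT H158

section

variable {M N : Type*} [TopologicalSpace M] [ChartedSpace C2 M] [TopologicalSpace N]
  [ChartedSpace C2 N] [IsManifold 𝓘(ℂ, C2) ω M] [IsManifold 𝓘(ℂ, C2) ω N]
  {ι ι' : Type} [Fintype ι] [DecidableEq ι] [Fintype ι'] [DecidableEq ι']

theorem isCanon_comp {q : M → N} (hq : ChartMap q) {LK : LB N ι} (h : RR.IsCanon LK) :
    RR.IsCanon (hq.lb LK) := by
  obtain ⟨σ, h1, h2, h3⟩ := h
  exact ⟨fun x => σ (q x), hq.reg0_comp h1, fun x => h2 (q x), fun x => h3 (q x)⟩

/-- **intersection numbers are invariant under biholomorphisms** -/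
theorem isec_comp_of_bijective [T2Space M] [CompactSpace M] [T2Space N] [CompactSpace N]
    {q : M → N} (hq : ChartMap q) (hb : Function.Bijective q) (L : LB N ι) (L' : LB N ι') :
    RR.isec (hq.lb L) (hq.lb L') = RR.isec L L' := by
  unfold RR.isec
  congr 1
  rw [hq.lb_curv, hq.lb_curv]
  have h1 : (pull2 q L.curv).wedge (pull2 q L'.curv) = fun x => (L.curv.wedge L'.curv) (q x) := by
    funext x
    rw [wedge_pull2]
  rw [h1]
  exact intX_comp_of_bijective hq hb (fun e he => (H332.reg2_wedge L.curv_smooth L'.curv_smooth e he).of_le (by simp))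
    (HasCompactSupport.of_compactSpace _)

end

section asm

variable {X : Type} [TopologicalSpace X] [CompactSpace X] [T2Space X] [ChartedSpace C2 X]
  [IsManifold 𝓘(ℂ, C2) ω X]

theorem nefKK_of_nef (h : Asm.Nef X) : NefKK X := by
  intro ι _ _ LK a ha hc s hs h0
  exact h ι ι LK a LK ha hc s hs h0

/-- `K·K = -n` on `X` from the numerical facts on the one-fold cover -/
theorem isec_KK {hh : C(X, UnitAddCircle)} {n : ℕ} (hS : BlockC.SurfIn (CovM hh 1) (1 * n))
    {ι : Type} [Fintype ι] [DecidableEq ι] {LK : LB X ι} (hc : RR.IsCanon LK) : RR.isec LK LK = -n := by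
  have hq : ChartMap (CovM.one hh : CovM hh 1 → X) := chartMap_one
  have hb : Function.Bijective (CovM.one hh : CovM hh 1 → X) := (CovM.one hh).bijective
  rw [← isec_comp_of_bijective hq hb LK LK]
  have := hS.kk ⟨ι, hq.lb LK⟩ (isCanon_comp hq hc)
  simpa using this

/-- **XM-K in the language of the assembly.** -/
theorem noFloquetK_of_asm {n : ℕ} (hn : 0 < n) (hnef : Asm.Nef X) (B : Asm.Base X)
    (hS : BlockC.SurfIn (CovM B.hh 1) (1 * n)) : B.D.NoFloquetK := by
  refine noFloquetK (isQuo_cov B.γ_eq) (nefKK_of_nef hnef) ?_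
  intro ι _ _ LK hc
  rw [isec_KK hS hc]
  simp [hn]

end asm

end Vale.Agent.P267.H417
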