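import Vale.Agent.P267.H417.Floquet
import Vale.Agent.P267.H662.KBEx
import Vale.Agent.P267.H622.Coh

/-!
# P267 / XM-K (helper417): `K` nef and `K·K < 0` imply the vanishing of all Floquet sections of `K`
-/

set_option linter.unusedVariables false
set_option linter.unusedSectionVars false

open scoped Manifold ContDiff ComplexConjugate Matrix ComplexOrder Topology
open MeasureTheory Set Filter

noncomputable section

namespace Vale.Agent.P267.H417

open FL XT H158

/-- `K` nef, tested against (twists of) `K` itself -/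
def NefKK (X : Type) [TopologicalSpace X] [ChartedSpace C2 X] : Prop :=
  ∀ (ι : Type) [Fintype ι] [DecidableEq ι] (LK : LB X ι) (a : X → Fin 2 → ℂ), LK.IsHol a →
    RR.IsCanon LK → ∀ s ∈ RR.H0 LK a 0, s ≠ 0 → 0 ≤ (RR.isec LK LK).re

section

variable {M : Type} [TopologicalSpace M] [ChartedSpace C2 M] [IsManifold 𝓘(ℂ, C2) ω M]
variable {X : Type} [TopologicalSpace X] [CompactSpace X] [T2Space X] [ChartedSpace C2 X]
  [IsManifold 𝓘(ℂ, C2) ω X]

/-- **(I2), `K` nef and `K·K < 0` ⟹ no Floquet sections of `K`.** -/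
theorem noFloquetK {D : XTData M} {q : M → X} (h : IsQuo D q) (hn : NefKK X)
    (hKK : ∀ (ι : Type) [Fintype ι] [DecidableEq ι] (LK : LB X ι), RR.IsCanon LK →
      (RR.isec LK LK).re < 0) : D.NoFloquetK := by
  intro μ v hμ hv hvh hvγ
  obtain ⟨N, ⟨K⟩⟩ := H662.exists_KBun (X := X)
  have hcan : RR.IsCanon K.L := ⟨K.σ, K.sm, K.sec, K.ne⟩
  refine floquet_zero h K.L K.a K.hol K.σ K.sm K.sec K.ne K.dbar ?_ hμ hv hvh hvγ
  intro a ha s hs
  by_contra h0
  exact absurd (hn (Fin N) K.L a ha hcan s hs h0) (not_le.2 (hKK (Fin N) K.L hcan))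

/-- no equivariant holomorphic sections of `K ⊗ (trivial bundle)` -/
theorem triv_zero {D : XTData M} (hD : D.NoFloquetK) {ι : Type} [Fintype ι] [DecidableEq ι]
    (i₀ : ι) {m : ℕ} (hm : m ≠ 0) {μ : ℂ} (hμ : μ ≠ 0) {v : M → EuclideanSpace ℂ ι}
    (hv : Reg0 ∞ 1 v) (hvs : (LB.triv (X := M) i₀).Sec v)
    (hvh : ∀ x i, (LB.triv (X := M) i₀).db0 0 1 v x i = 0) (hvm : D.Equiv m μ v) (x : M) :
    v x = 0 := by
  have hP : ∀ (w : EuclideanSpace ℂ ι) (j : ι),
      LB.act (Matrix.single i₀ i₀ (1 : ℂ)) w j = if j = i₀ then w j else 0 := by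
    intro w j
    simp only [LB.act, PiLp.toLp_apply]
    rw [Matrix.mulVec, dotProduct]
    by_cases hj : j = i₀
    · subst hj
      rw [if_pos rfl, Finset.sum_eq_single j]
      · simp
      · intro k _ hk
        simp [Ne.symm hk]
      · intro hk
        exact absurd (Finset.mem_univ j) hk
    · rw [if_neg hj]
      refine Finset.sum_eq_zero fun k _ => ?_
      simp [Ne.symm hj]
  set π : EuclideanSpace ℂ ι →L[ℂ] ℂ := EuclideanSpace.proj i₀ with hπ
  have h1 : Reg0 ∞ 1 fun y => π (v y) := by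
    rw [reg0_iff_at]
    exact fun y => (hv.at y).clm π
  have h2 : ∀ y i, dbar0 1 (fun y => π (v y)) y i = 0 := by
    intro y i
    have e1 := FL.dbar0_clm π ((hv.at y).of_le one_le_infty) i
    rw [e1]
    have e2 := hvh y i
    rw [LB.db0, Pi.zero_apply, Pi.zero_apply, zero_smul, add_zero] at e2
    have e3 := congrArg (fun w : EuclideanSpace ℂ ι => w i₀) e2
    have e4 := hP (dbar0 1 v y i) i₀
    rw [if_pos rfl] at e4
    show (dbar0 1 v y i) i₀ = 0
    rw [← e4]
    exact e3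
  have h3 := noFloquetK_pow D hD hm hμ h1 h2 (fun y => by
    show π (v (D.sh m y)) = μ • π (v y)
    rw [hvm y, map_smul]) x
  ext j
  have h4 := hP (v x) j
  have h5 : LB.act (Matrix.single i₀ i₀ (1 : ℂ)) (v x) = v x := hvs x
  rw [h5] at h4
  rw [h4]
  split_ifs with hj
  · rw [hj]; exact h3
  · rfl

end

/-! ### the covers `Cov hh → X` -/

section cov

variable {X : Type} [TopologicalSpace X] [ChartedSpace C2 X] [IsManifold 𝓘(ℂ, C2) ω X]
  {hh : C(X, UnitAddCircle)}

theorem isQuo_cov {D : XTData (Cov hh)} (hD : ∀ x, D.γ x = Cov.γ x) :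
    IsQuo D (Cov.p : Cov hh → X) where
  map := chartMap_p
  surj := Cov.surjective_p
  fib x y hxy := by
    obtain ⟨k, hk⟩ := Cov.p_eq_iff.1 hxy
    exact ⟨k, by rw [hk, sh_eq_shift (Homeomorph.ext hD)]⟩
  inv x := by rw [hD]; rfl

/-- **`H⁰(X_m, K ⊗ L_μ) = 0`**, in particular `p_g(X_m) = 0` (`lam = 0`). -/
theorem H0_eq_bot {D : XTData (Cov hh)} (hD : ∀ x, D.γ x = Cov.γ x) (hf : D.NoFloquetK)
    {ι : Type} [Fintype ι] [DecidableEq ι] (i₀ : ι) (m : ℕ) [NeZero m]
    {a : CovM hh m → Fin 2 → ℂ} {lam : ℂ}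
    (ha : ∀ z i, a (Cov.toM m z) i = lam * dbar0 0 (fun y => (D.f y : ℂ)) z i) :
    RR.H0 (LB.triv (X := CovM hh m) i₀) a 1 = ⊥ := by
  rw [eq_bot_iff]
  intro s hs
  obtain ⟨⟨h1, h2⟩, h3⟩ := (RR.mem_H0 _ _ _).1 hs
  have hD' : D.γ = Cov.γ := Homeomorph.ext hD
  have hfm : ∀ z, D.f (Cov.shift m z) = D.f z + m := fun z => by
    have := D.f_sh m z
    rw [sh_eq_shift hD'] at this
    simpa using this
  have hsr : Reg0 ∞ 1 fun z : Cov hh => s (Cov.toM m z) := chartMap_toM.reg0_comp h1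
  have hu : ∀ z, tw lam D.f z • s (Cov.toM m z) = 0 := by
    refine triv_zero hf i₀ (NeZero.ne m) (μ := Complex.exp (lam * m)) (Complex.exp_ne_zero _)
      ?_ ?_ ?_ ?_
    · rw [reg0_iff_at]
      exact fun z => ((reg0_tw D.f_smooth lam).at z).smul (hsr.at z)
    · intro z
      have := h2 (Cov.toM m z)
      show LB.act (Matrix.single i₀ i₀ 1) _ = _
      rw [act_smul']
      congr 1
    · intro z i
      have e1 := db0_tw (lam := lam) D.f_smooth (L := LB.triv (X := Cov hh) i₀) 0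
        ((hsr.at z).of_le one_le_infty) (h2 (Cov.toM m z)) i
      rw [e1]
      have e2 : twa lam D.f (0 : Cov hh → Fin 2 → ℂ) = fun z => a (Cov.toM m z) := by
        funext y j
        rw [twa, ha]
        simp
      rw [e2]
      have e3 := chartMap_toM.lb_db0 (LB.triv (X := CovM hh m) i₀) a 1 s z
      rw [h3] at e3
      have e4 := congrFun e3 i
      have e5 : (LB.triv (X := Cov hh) i₀).db0 (fun z => a (Cov.toM m z)) 1
          (fun z => s (Cov.toM m z)) z i = 0 := e4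
      rw [e5, smul_zero]
    · intro z
      rw [sh_eq_shift hD']
      show tw lam D.f (Cov.shift m z) • s (Cov.toM m (Cov.shift m z)) =
        Complex.exp (lam * m) • tw lam D.f z • s (Cov.toM m z)
      rw [tw_shift hfm, toM_shift_m, mul_smul]
  rw [Submodule.mem_bot]
  funext y
  obtain ⟨z, rfl⟩ := Cov.surjective_toM (h := hh) (m := m) y
  exact (smul_eq_zero.1 (hu z)).resolve_left (tw_ne_zero lam D.f z)

/-- `p_g(X_m) = 0`, scalar form -/
theorem pg_zero {D : XTData (Cov hh)} (hD : ∀ x, D.γ x = Cov.γ x) (hf : D.NoFloquetK) (m : ℕ)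
    [NeZero m] (u : CovM hh m → ℂ) (hu : Reg0 ∞ 1 u) (hd : ∀ x i, dbar0 1 u x i = 0) : u = 0 := by
  funext y
  obtain ⟨z, rfl⟩ := Cov.surjective_toM (h := hh) (m := m) y
  have hD' : D.γ = Cov.γ := Homeomorph.ext hD
  refine noFloquetK_pow D hf (NeZero.ne m) one_ne_zero (v := fun z => u (Cov.toM m z))
    (chartMap_toM.reg0_comp hu) (fun x i => ?_) (fun x => ?_) z
  · rw [chartMap_toM.dbar0_comp]
    exact hd _ i
  · show u (Cov.toM m (D.sh m x)) = (1 : ℂ) • u (Cov.toM m x)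
    rw [sh_eq_shift hD', toM_shift_m, one_smul]

/-- `p_g(X_m) = 0` -/
theorem pg_eq_zero {D : XTData (Cov hh)} (hD : ∀ x, D.γ x = Cov.γ x) (hf : D.NoFloquetK) (m : ℕ)
    [NeZero m] : RR.H0 (RR.OX (CovM hh m)) 0 1 = ⊥ :=
  H0_eq_bot hD hf 0 m (lam := 0) fun z i => by simp

end cov

end Vale.Agent.P267.H417
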